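import Mathlib

/-! # P036: Heilbronn triangles in point sets with additive structure -/

open Finset
open scoped Pointwise

namespace Vale.Agent.Results.P036.EnergyBound

/-- Twice the signed area of the triangle `p q r`: the determinant of `q - p` and `r - p`. -/
def det3 (p q r : ℝ × ℝ) : ℝ :=
  (q.1 - p.1) * (r.2 - p.2) - (q.2 - p.2) * (r.1 - p.1)

/-- The area of the triangle `p q r`. -/
noncomputable def area (p q r : ℝ × ℝ) : ℝ := 1 / 2 * |det3 p q r|

/-- The finite set `P` lies in the closed unit square. -/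
def InSquare (P : Finset (ℝ × ℝ)) : Prop :=
  ∀ p ∈ P, (0 ≤ p.1 ∧ p.1 ≤ 1) ∧ (0 ≤ p.2 ∧ p.2 ≤ 1)

/-- Some triangle with three distinct vertices in `P` has area at most `δ`,
that is `Δ(P) ≤ δ`. -/
def HasTriangle (P : Finset (ℝ × ℝ)) (δ : ℝ) : Prop :=
  ∃ p ∈ P, ∃ q ∈ P, ∃ r ∈ P, p ≠ q ∧ p ≠ r ∧ q ≠ r ∧ area p q r ≤ δ

theorem packing {ι : Type} (U : Finset ι) (φ : ι → ℝ) (α L a : ℝ) (ha : 0 < a) (hL : 0 ≤ L)
    (hmem : ∀ i ∈ U, α ≤ φ i ∧ φ i ≤ α + L)
    (hsep : ∀ i ∈ U, ∀ j ∈ U, i ≠ j → a ≤ |φ i - φ j|) :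
    (U.card : ℝ) ≤ L / a + 1 := by
  have hcard : U.card ≤ (Finset.range (⌊L / a⌋₊ + 1)).card := by
    apply Finset.card_le_card_of_injOn (fun i => ⌊(φ i - α) / a⌋₊)
    · intro i hi
      have hi' : i ∈ U := by simpa using hi
      have h := hmem i hi'
      simp only [Finset.coe_range, Set.mem_Iio]
      have : ⌊(φ i - α) / a⌋₊ ≤ ⌊L / a⌋₊ := by
        apply Nat.floor_le_floor
        apply div_le_div_of_nonneg_right _ ha.le
        linarith [h.2]
      omega
    · intro i hi j hj hij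
      by_contra hne
      have hi' : i ∈ U := by simpa using hi
      have hj' : j ∈ U := by simpa using hj
      have hs := hsep i hi' j hj' hne
      simp only at hij
      have h1 := hmem i hi'
      have h2 := hmem j hj'
      have f1 : 0 ≤ (φ i - α) / a := div_nonneg (by linarith [h1.1]) ha.le
      have f2 : 0 ≤ (φ j - α) / a := div_nonneg (by linarith [h2.1]) ha.le
      have g1 := Nat.floor_le f1
      have g2 := Nat.floor_le f2
      have g3 := Nat.lt_floor_add_one ((φ i - α) / a)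
      have g4 := Nat.lt_floor_add_one ((φ j - α) / a)
      rw [hij] at g1 g3
      have k1 : |(φ i - α) / a - (φ j - α) / a| < 1 := by
        rw [abs_lt]; constructor <;> linarith
      have k2 : (φ i - α) / a - (φ j - α) / a = (φ i - φ j) / a := by ring
      rw [k2, abs_div, abs_of_pos ha, div_lt_one ha] at k1
      linarith
  rw [Finset.card_range] at hcard
  have h3 : (⌊L / a⌋₊ : ℝ) ≤ L / a := Nat.floor_le (div_nonneg hL ha.le)
  have h4 : (U.card : ℝ) ≤ (⌊L / a⌋₊ : ℝ) + 1 := by exact_mod_cast hcard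
  linarith

/-- A nonzero difference `d` is not popular in a set without small triangles. -/
theorem popularity (P : Finset (ℝ × ℝ)) (hP : InSquare P) (a : ℝ) (ha : 0 < a)
    (hA : ∀ p ∈ P, ∀ q ∈ P, ∀ r ∈ P, p ≠ q → p ≠ r → q ≠ r → a ≤ |det3 p q r|)
    (d : ℝ × ℝ) (hd : d ≠ 0) :
    ((P.filter (fun p => p + d ∈ P)).card : ℝ) ≤ (|d.1| + |d.2|) / a + 1 := by
  apply packing (P.filter (fun p => p + d ∈ P)) (fun x => d.1 * x.2 - d.2 * x.1)
    (min d.1 0 - max d.2 0) (|d.1| + |d.2|) a ha (by positivity)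
  · intro x hx
    rw [Finset.mem_filter] at hx
    obtain ⟨⟨h1, h2⟩, h3, h4⟩ := hP x hx.1
    rcases le_total 0 d.1 with e1 | e1 <;> rcases le_total 0 d.2 with e2 | e2
    · rw [min_eq_right e1, max_eq_left e2, abs_of_nonneg e1, abs_of_nonneg e2]
      constructor <;> nlinarith
    · rw [min_eq_right e1, max_eq_right e2, abs_of_nonneg e1, abs_of_nonpos e2]
      constructor <;> nlinarith
    · rw [min_eq_left e1, max_eq_left e2, abs_of_nonpos e1, abs_of_nonneg e2]
      constructor <;> nlinarith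
    · rw [min_eq_left e1, max_eq_right e2, abs_of_nonpos e1, abs_of_nonpos e2]
      constructor <;> nlinarith
  · intro p hp q hq hne
    rw [Finset.mem_filter] at hp hq
    have hpd : p ≠ p + d := by
      intro h
      exact hd (by simpa using h)
    have hqd : q ≠ p + d := by
      intro h
      have h1 : p + d ≠ q + d := fun e => hne (add_right_cancel e)
      have h2 : p ≠ q + d := by
        intro e
        rw [h] at e
        have e1 := congrArg Prod.fst e
        have e2 := congrArg Prod.snd e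
        simp only [Prod.fst_add, Prod.snd_add] at e1 e2
        apply hd
        ext
        · simp only [Prod.fst_zero]; linarith
        · simp only [Prod.snd_zero]; linarith
      have h3 := hA p hp.1 (p + d) hp.2 (q + d) hq.2 hpd h2 h1
      have h4 : det3 p (p + d) (q + d) = 0 := by
        rw [h]
        simp only [det3, Prod.fst_add, Prod.snd_add]
        ring
      rw [h4, abs_zero] at h3
      linarith
    have h5 := hA p hp.1 (p + d) hp.2 q hq.1 hpd hne (fun e => hqd e.symm)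
    have h6 : det3 p (p + d) q = -((d.1 * p.2 - d.2 * p.1) - (d.1 * q.2 - d.2 * q.1)) := by
      simp only [det3, Prod.fst_add, Prod.snd_add]
      ring
    rw [h6, abs_neg] at h5
    exact h5

/-- Index of the cell of side `1 / M` containing a number of the unit interval. -/
noncomputable def cell1 (M : ℕ) (u : ℝ) : ℕ := min ⌊(M : ℝ) * u⌋₊ (M - 1)

theorem cell1_lt (M : ℕ) (hM : 1 ≤ M) (u : ℝ) : cell1 M u < M := by
  unfold cell1
  have := min_le_right ⌊(M : ℝ) * u⌋₊ (M - 1)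
  omega

theorem cell1_bounds (M : ℕ) (hM : 1 ≤ M) (u : ℝ) (h0 : 0 ≤ u) (h1 : u ≤ 1) :
    (cell1 M u : ℝ) ≤ M * u ∧ (M : ℝ) * u ≤ cell1 M u + 1 := by
  have hM' : (0 : ℝ) ≤ M := Nat.cast_nonneg M
  have hfl := Nat.floor_le (mul_nonneg hM' h0)
  have hlt := Nat.lt_floor_add_one ((M : ℝ) * u)
  have hMu : (M : ℝ) * u ≤ M := by nlinarith
  unfold cell1
  rcases le_total ⌊(M : ℝ) * u⌋₊ (M - 1) with h | h
  · rw [min_eq_left h]
    exact ⟨hfl, hlt.le⟩
  · rw [min_eq_right h]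
    have hc : ((M - 1 : ℕ) : ℝ) = (M : ℝ) - 1 := by
      rw [Nat.cast_sub hM]; simp
    constructor
    · have : ((M - 1 : ℕ) : ℝ) ≤ (⌊(M : ℝ) * u⌋₊ : ℝ) := by exact_mod_cast h
      linarith
    · rw [hc]; linarith

theorem cell1_close (M : ℕ) (hM : 1 ≤ M) (u v : ℝ) (hu0 : 0 ≤ u) (hu1 : u ≤ 1)
    (hv0 : 0 ≤ v) (hv1 : v ≤ 1) (h : cell1 M u = cell1 M v) : |u - v| ≤ 1 / M := by
  have hM' : (0 : ℝ) < M := by exact_mod_cast hM
  obtain ⟨a1, a2⟩ := cell1_bounds M hM u hu0 hu1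
  obtain ⟨b1, b2⟩ := cell1_bounds M hM v hv0 hv1
  rw [h] at a1 a2
  rw [le_div_iff₀ hM']
  have h3 : |u - v| * (M : ℝ) = |(u - v) * M| := by
    rw [abs_mul, abs_of_pos hM']
  rw [h3, abs_le]
  constructor <;> nlinarith

/-- The number of pairs representing `s`, by second coordinate. -/
theorem rep_card (P B : Finset (ℝ × ℝ)) (s : ℝ × ℝ) :
    ((P ×ˢ B).filter (fun x => x.1 + x.2 = s)).card
      = (B.filter (fun b => s - b ∈ P)).card := by
  apply Finset.card_bij' (fun x _ => x.2) (fun b _ => (s - b, b))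
  · intro x hx
    rw [Finset.mem_filter, Finset.mem_product] at hx
    rw [Finset.mem_filter]
    refine ⟨hx.1.2, ?_⟩
    rw [← hx.2, add_sub_cancel_right]
    exact hx.1.1
  · intro b hb
    rw [Finset.mem_filter] at hb
    rw [Finset.mem_filter, Finset.mem_product]
    exact ⟨⟨hb.2, hb.1⟩, sub_add_cancel s b⟩
  · intro x hx
    rw [Finset.mem_filter, Finset.mem_product] at hx
    rw [← hx.2, add_sub_cancel_right]
  · intro b _
    rfl

theorem sq_card_filter (P B : Finset (ℝ × ℝ)) (s : ℝ × ℝ) :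
    ((B.filter (fun b => s - b ∈ P)).card : ℝ) ^ 2
      = ∑ x ∈ B, ∑ y ∈ B, (if s - x ∈ P ∧ s - y ∈ P then (1 : ℝ) else 0) := by
  rw [sq, Finset.card_filter]
  push_cast
  rw [Finset.sum_mul_sum]
  apply Finset.sum_congr rfl
  intro x _
  apply Finset.sum_congr rfl
  intro y _
  by_cases h1 : s - x ∈ P <;> by_cases h2 : s - y ∈ P <;> simp [h1, h2]

/-- Second moment of the representation counts of one cell. -/
theorem cell_moment (P : Finset (ℝ × ℝ)) (hP : InSquare P) (a : ℝ) (ha : 0 < a)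
    (hA : ∀ p ∈ P, ∀ q ∈ P, ∀ r ∈ P, p ≠ q → p ≠ r → q ≠ r → a ≤ |det3 p q r|)
    (S B : Finset (ℝ × ℝ)) (w : ℝ)
    (hclose : ∀ x ∈ B, ∀ y ∈ B, |x.1 - y.1| ≤ w ∧ |x.2 - y.2| ≤ w) (hw : 0 ≤ w) :
    ∑ s ∈ S, ((B.filter (fun b => s - b ∈ P)).card : ℝ) ^ 2
      ≤ (B.card : ℝ) * P.card + (B.card : ℝ) ^ 2 * (2 * w / a + 1) := by
  have h1 : ∑ s ∈ S, ((B.filter (fun b => s - b ∈ P)).card : ℝ) ^ 2
      = ∑ x ∈ B, ∑ y ∈ B, ((S.filter (fun s => s - x ∈ P ∧ s - y ∈ P)).card : ℝ) := by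
    calc ∑ s ∈ S, ((B.filter (fun b => s - b ∈ P)).card : ℝ) ^ 2
        = ∑ s ∈ S, ∑ x ∈ B, ∑ y ∈ B, (if s - x ∈ P ∧ s - y ∈ P then (1 : ℝ) else 0) :=
          Finset.sum_congr rfl (fun s _ => sq_card_filter P B s)
      _ = ∑ x ∈ B, ∑ s ∈ S, ∑ y ∈ B, (if s - x ∈ P ∧ s - y ∈ P then (1 : ℝ) else 0) :=
          Finset.sum_comm
      _ = ∑ x ∈ B, ∑ y ∈ B, ∑ s ∈ S, (if s - x ∈ P ∧ s - y ∈ P then (1 : ℝ) else 0) :=
          Finset.sum_congr rfl (fun x _ => Finset.sum_comm)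
      _ = _ := by
          apply Finset.sum_congr rfl
          intro x _
          apply Finset.sum_congr rfl
          intro y _
          rw [Finset.card_filter]
          push_cast
          rfl
  rw [h1]
  have h2 : ∀ x ∈ B, ∀ y ∈ B, ((S.filter (fun s => s - x ∈ P ∧ s - y ∈ P)).card : ℝ)
      ≤ (if x = y then (P.card : ℝ) else 0) + (2 * w / a + 1) := by
    intro x hx y hy
    by_cases hxy : x = y
    · rw [if_pos hxy]
      have hc : (S.filter (fun s => s - x ∈ P ∧ s - y ∈ P)).card ≤ P.card := by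
        apply Finset.card_le_card_of_injOn (fun s => s - x)
        · intro s hs
          have hs' : s ∈ S.filter (fun s => s - x ∈ P ∧ s - y ∈ P) := by simpa using hs
          rw [Finset.mem_filter] at hs'
          exact hs'.2.1
        · intro s _ t _ hst
          exact sub_left_injective hst
      have hc' : ((S.filter (fun s => s - x ∈ P ∧ s - y ∈ P)).card : ℝ) ≤ P.card := by
        exact_mod_cast hc
      have : 0 ≤ 2 * w / a := by positivity
      linarith
    · rw [if_neg hxy, zero_add]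
      have hd : x - y ≠ 0 := sub_ne_zero.mpr hxy
      have hc : (S.filter (fun s => s - x ∈ P ∧ s - y ∈ P)).card
          ≤ (P.filter (fun p => p + (x - y) ∈ P)).card := by
        apply Finset.card_le_card_of_injOn (fun s => s - x)
        · intro s hs
          have hs' : s ∈ S.filter (fun s => s - x ∈ P ∧ s - y ∈ P) := by simpa using hs
          rw [Finset.mem_filter] at hs'
          have : s - x ∈ P.filter (fun p => p + (x - y) ∈ P) := by
            rw [Finset.mem_filter]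
            refine ⟨hs'.2.1, ?_⟩
            rw [sub_add_sub_cancel]
            exact hs'.2.2
          exact_mod_cast this
        · intro s _ t _ hst
          exact sub_left_injective hst
      have hc' : ((S.filter (fun s => s - x ∈ P ∧ s - y ∈ P)).card : ℝ)
          ≤ ((P.filter (fun p => p + (x - y) ∈ P)).card : ℝ) := by
        exact_mod_cast hc
      have hpop := popularity P hP a ha hA (x - y) hd
      obtain ⟨c1, c2⟩ := hclose x hx y hy
      have h3 : (|(x - y).1| + |(x - y).2|) / a ≤ 2 * w / a := by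
        apply div_le_div_of_nonneg_right _ ha.le
        rw [Prod.fst_sub, Prod.snd_sub]
        linarith
      linarith
  calc ∑ x ∈ B, ∑ y ∈ B, ((S.filter (fun s => s - x ∈ P ∧ s - y ∈ P)).card : ℝ)
      ≤ ∑ x ∈ B, ∑ y ∈ B, ((if x = y then (P.card : ℝ) else 0) + (2 * w / a + 1)) :=
        Finset.sum_le_sum (fun x hx => Finset.sum_le_sum (fun y hy => h2 x hx y hy))
    _ = (B.card : ℝ) * P.card + (B.card : ℝ) ^ 2 * (2 * w / a + 1) := by
        have e1 : ∀ x ∈ B, ∑ y ∈ B, ((if x = y then (P.card : ℝ) else 0) + (2 * w / a + 1))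
            = (P.card : ℝ) + B.card * (2 * w / a + 1) := by
          intro x hx
          rw [Finset.sum_add_distrib, Finset.sum_ite_eq, if_pos hx, Finset.sum_const,
            nsmul_eq_mul]
        rw [Finset.sum_congr rfl e1, Finset.sum_const, nsmul_eq_mul]
        ring

/-- The cell of side `1 / M` containing a point. -/
noncomputable def cell (M : ℕ) (b : ℝ × ℝ) : ℕ × ℕ := (cell1 M b.1, cell1 M b.2)

/-- The main inequality. -/
theorem main_ineq (P B : Finset (ℝ × ℝ)) (hP : InSquare P) (hB : InSquare B) (a : ℝ)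
    (ha : 0 < a)
    (hA : ∀ p ∈ P, ∀ q ∈ P, ∀ r ∈ P, p ≠ q → p ≠ r → q ≠ r → a ≤ |det3 p q r|)
    (M : ℕ) (hM : 1 ≤ M) :
    (P.addEnergy B : ℝ) ≤ (M : ℝ) ^ 2 * P.card * B.card
      + (B.card : ℝ) ^ 2 * (2 / (M * a) + 1) := by
  set C : Finset (ℕ × ℕ) := Finset.range M ×ˢ Finset.range M with hC
  have hmaps : ∀ b ∈ B, cell M b ∈ C := by
    intro b _
    rw [hC, Finset.mem_product, Finset.mem_range, Finset.mem_range]
    exact ⟨cell1_lt M hM b.1, cell1_lt M hM b.2⟩
  set m : ℕ × ℕ → ℝ := fun c => ((B.filter (fun b => cell M b = c)).card : ℝ) with hm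
  set A : ℝ × ℝ → ℕ × ℕ → ℝ := fun s c =>
    (((B.filter (fun b => cell M b = c)).filter (fun b => s - b ∈ P)).card : ℝ) with hAdef
  have hmsum : ∑ c ∈ C, m c = (B.card : ℝ) := by
    rw [Finset.card_eq_sum_card_fiberwise hmaps]
    push_cast
    rfl
  have hAsum : ∀ s, ((B.filter (fun b => s - b ∈ P)).card : ℝ) = ∑ c ∈ C, A s c := by
    intro s
    have hmaps' : ∀ b ∈ B.filter (fun b => s - b ∈ P), cell M b ∈ C := fun b hb =>
      hmaps b (Finset.mem_filter.mp hb).1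
    rw [Finset.card_eq_sum_card_fiberwise hmaps']
    push_cast
    apply Finset.sum_congr rfl
    intro c _
    simp only [hAdef]
    rw [Finset.filter_comm]
  have hE : (P.addEnergy B : ℝ)
      = ∑ s ∈ P + B, ((B.filter (fun b => s - b ∈ P)).card : ℝ) ^ 2 := by
    rw [Finset.addEnergy_eq_sum_sq']
    push_cast
    apply Finset.sum_congr rfl
    intro s _
    rw [rep_card]
  have hCS : ∀ s, (∑ c ∈ C, A s c) ^ 2 ≤ (∑ c ∈ C, m c) * ∑ c ∈ C, A s c ^ 2 / m c := by
    intro s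
    apply Finset.sum_sq_le_sum_mul_sum_of_sq_le_mul
    · intro c _
      exact Nat.cast_nonneg _
    · intro c _
      exact div_nonneg (sq_nonneg _) (Nat.cast_nonneg _)
    · intro c _
      by_cases h0 : m c = 0
      · have hz : A s c = 0 := by
          have h1 : (B.filter (fun b => cell M b = c)).card = 0 := by
            have : ((B.filter (fun b => cell M b = c)).card : ℝ) = 0 := h0
            exact_mod_cast this
          have h2 : ((B.filter (fun b => cell M b = c)).filter (fun b => s - b ∈ P)).card = 0 := by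
            rw [Finset.card_eq_zero] at h1 ⊢
            rw [h1, Finset.filter_empty]
          simp only [hAdef]
          rw [h2, Nat.cast_zero]
        rw [h0, hz]; simp
      · apply le_of_eq
        field_simp
  have hMpos : (0 : ℝ) < M := by exact_mod_cast hM
  have hcell : ∀ c ∈ C, ∑ s ∈ P + B, A s c ^ 2 / m c
      ≤ (P.card : ℝ) + m c * (2 / (M * a) + 1) := by
    intro c _
    rw [← Finset.sum_div]
    have hmc : 0 ≤ m c := Nat.cast_nonneg _
    have hK : 0 ≤ 2 / ((M : ℝ) * a) + 1 := by positivity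
    rcases hmc.eq_or_lt with h0 | h0
    · rw [← h0, div_zero]
      have : (0 : ℝ) ≤ P.card := Nat.cast_nonneg _
      linarith
    · rw [div_le_iff₀ h0]
      have hclose : ∀ x ∈ B.filter (fun b => cell M b = c),
          ∀ y ∈ B.filter (fun b => cell M b = c),
          |x.1 - y.1| ≤ 1 / (M : ℝ) ∧ |x.2 - y.2| ≤ 1 / (M : ℝ) := by
        intro x hx y hy
        rw [Finset.mem_filter] at hx hy
        have e : cell M x = cell M y := by rw [hx.2, hy.2]
        obtain ⟨⟨x1, x2⟩, x3, x4⟩ := hB x hx.1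
        obtain ⟨⟨y1, y2⟩, y3, y4⟩ := hB y hy.1
        exact ⟨cell1_close M hM _ _ x1 x2 y1 y2 (congrArg Prod.fst e),
          cell1_close M hM _ _ x3 x4 y3 y4 (congrArg Prod.snd e)⟩
      have key := cell_moment P hP a ha hA (P + B) (B.filter (fun b => cell M b = c))
        (1 / (M : ℝ)) hclose (by positivity)
      have e2 : 2 * (1 / (M : ℝ)) / a = 2 / (M * a) := by field_simp
      rw [e2] at key
      have e3 : ∑ s ∈ P + B, A s c ^ 2
          ≤ m c * P.card + m c ^ 2 * (2 / (M * a) + 1) := key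
      nlinarith [e3]
  rw [hE]
  calc ∑ s ∈ P + B, ((B.filter (fun b => s - b ∈ P)).card : ℝ) ^ 2
      = ∑ s ∈ P + B, (∑ c ∈ C, A s c) ^ 2 := by
        apply Finset.sum_congr rfl
        intro s _
        rw [hAsum s]
    _ ≤ ∑ s ∈ P + B, (B.card : ℝ) * ∑ c ∈ C, A s c ^ 2 / m c := by
        apply Finset.sum_le_sum
        intro s _
        rw [← hmsum]
        exact hCS s
    _ = (B.card : ℝ) * ∑ c ∈ C, ∑ s ∈ P + B, A s c ^ 2 / m c := by
        rw [← Finset.mul_sum, Finset.sum_comm]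
    _ ≤ (B.card : ℝ) * ∑ c ∈ C, ((P.card : ℝ) + m c * (2 / (M * a) + 1)) := by
        apply mul_le_mul_of_nonneg_left _ (Nat.cast_nonneg _)
        exact Finset.sum_le_sum hcell
    _ = (M : ℝ) ^ 2 * P.card * B.card + (B.card : ℝ) ^ 2 * (2 / (M * a) + 1) := by
        rw [Finset.sum_add_distrib, Finset.sum_const, ← Finset.sum_mul, hmsum, nsmul_eq_mul, hC,
          Finset.card_product, Finset.card_range]
        push_cast
        ring

theorem comb_le (c1 c2 c3 y1 y2 y3 w : ℝ) (hs : c1 + c2 + c3 = 0)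
    (h1 : |c1| ≤ w) (h2 : |c2| ≤ w) (h3 : |c3| ≤ w)
    (hy1 : 0 ≤ y1 ∧ y1 ≤ 1) (hy2 : 0 ≤ y2 ∧ y2 ≤ 1) (hy3 : 0 ≤ y3 ∧ y3 ≤ 1) :
    c1 * y1 + c2 * y2 + c3 * y3 ≤ w := by
  have key : ∀ c y : ℝ, 0 ≤ y ∧ y ≤ 1 → c * y ≤ max c 0 := by
    intro c y hy
    rcases le_total 0 c with h | h
    · rw [max_eq_left h]; nlinarith [hy.1, hy.2]
    · rw [max_eq_right h]; nlinarith [hy.1, hy.2]
  have k1 := key c1 y1 hy1
  have k2 := key c2 y2 hy2
  have k3 := key c3 y3 hy3
  rw [abs_le] at h1 h2 h3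
  obtain ⟨a1, a2⟩ := h1
  obtain ⟨b1, b2⟩ := h2
  obtain ⟨d1, d2⟩ := h3
  rcases max_cases c1 0 with ⟨e1, f1⟩ | ⟨e1, f1⟩ <;>
    rcases max_cases c2 0 with ⟨e2, f2⟩ | ⟨e2, f2⟩ <;>
    rcases max_cases c3 0 with ⟨e3, f3⟩ | ⟨e3, f3⟩ <;>
    linarith

/-- A triangle in a vertical strip of width `w` of the unit square has determinant at most `w`. -/
theorem det3_strip (p q r : ℝ × ℝ) (w : ℝ)
    (hp : 0 ≤ p.2 ∧ p.2 ≤ 1) (hq : 0 ≤ q.2 ∧ q.2 ≤ 1) (hr : 0 ≤ r.2 ∧ r.2 ≤ 1)
    (hpq : |p.1 - q.1| ≤ w) (hpr : |p.1 - r.1| ≤ w) (hqr : |q.1 - r.1| ≤ w) :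
    |det3 p q r| ≤ w := by
  have e : det3 p q r = (q.1 - p.1) * r.2 + (r.1 - q.1) * p.2 + (p.1 - r.1) * q.2 := by
    simp only [det3]; ring
  have e' : -det3 p q r = (p.1 - q.1) * r.2 + (q.1 - r.1) * p.2 + (r.1 - p.1) * q.2 := by
    simp only [det3]; ring
  have u1 := comb_le (q.1 - p.1) (r.1 - q.1) (p.1 - r.1) r.2 p.2 q.2 w (by ring)
    (by rwa [abs_sub_comm]) (by rwa [abs_sub_comm]) hpr hr hp hq
  have u2 := comb_le (p.1 - q.1) (q.1 - r.1) (r.1 - p.1) r.2 p.2 q.2 w (by ring)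
    hpq hqr (by rwa [abs_sub_comm]) hr hp hq
  rw [abs_le]
  constructor <;> linarith

/-- The trivial bound `Δ(P) ≤ 2 / |P|`. -/
theorem trivial_bound (P : Finset (ℝ × ℝ)) (hP : InSquare P) (hn : 3 ≤ P.card) :
    HasTriangle P (2 / P.card) := by
  set M : ℕ := (P.card - 1) / 2 with hM
  have hM1 : 1 ≤ M := by omega
  have hMn : M * 2 < P.card := by omega
  have hMn' : P.card ≤ 4 * M := by omega
  have hmaps : ∀ b ∈ P, cell1 M b.1 ∈ Finset.range M := fun b _ =>
    Finset.mem_range.mpr (cell1_lt M hM1 b.1)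
  have hlt : (Finset.range M).card * 2 < P.card := by rwa [Finset.card_range]
  obtain ⟨c, _, hc⟩ := Finset.exists_lt_card_fiber_of_mul_lt_card_of_maps_to hmaps hlt
  obtain ⟨p, hp, q, hq, r, hr, hpq, hpr, hqr⟩ := Finset.two_lt_card.mp hc
  rw [Finset.mem_filter] at hp hq hr
  refine ⟨p, hp.1, q, hq.1, r, hr.1, hpq, hpr, hqr, ?_⟩
  obtain ⟨⟨p1, p2⟩, p3⟩ := hP p hp.1
  obtain ⟨⟨q1, q2⟩, q3⟩ := hP q hq.1
  obtain ⟨⟨r1, r2⟩, r3⟩ := hP r hr.1
  have h := det3_strip p q r (1 / M) p3 q3 r3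
    (cell1_close M hM1 _ _ p1 p2 q1 q2 (hp.2.trans hq.2.symm))
    (cell1_close M hM1 _ _ p1 p2 r1 r2 (hp.2.trans hr.2.symm))
    (cell1_close M hM1 _ _ q1 q2 r1 r2 (hq.2.trans hr.2.symm))
  unfold area
  have hMpos : (0 : ℝ) < M := by exact_mod_cast hM1
  have hnpos : (0 : ℝ) < P.card := by
    have : 0 < P.card := by omega
    exact_mod_cast this
  have h2 : 1 / (M : ℝ) ≤ 4 / P.card := by
    rw [div_le_div_iff₀ hMpos hnpos]
    have : (P.card : ℝ) ≤ 4 * M := by exact_mod_cast hMn'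
    linarith
  have h3 : (4 : ℝ) / P.card = 2 * (2 / P.card) := by ring
  linarith

theorem energy_le_left (P B : Finset (ℝ × ℝ)) : P.addEnergy B ≤ P.card * B.card ^ 2 := by
  unfold Finset.addEnergy
  have h : ((((P ×ˢ P) ×ˢ B ×ˢ B)).filter
      (fun x => x.1.1 + x.2.1 = x.1.2 + x.2.2)).card ≤ (P ×ˢ B ×ˢ B).card := by
    apply Finset.card_le_card_of_injOn (fun x => (x.1.1, x.2))
    · intro x hx
      have hx' : x ∈ ((P ×ˢ P) ×ˢ B ×ˢ B).filter
        (fun x => x.1.1 + x.2.1 = x.1.2 + x.2.2) := by exact_mod_cast hx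
      rw [Finset.mem_filter, Finset.mem_product, Finset.mem_product] at hx'
      have : (x.1.1, x.2) ∈ P ×ˢ B ×ˢ B := Finset.mem_product.mpr ⟨hx'.1.1.1, hx'.1.2⟩
      exact_mod_cast this
    · intro x hx y hy hxy
      have hx' : x ∈ ((P ×ˢ P) ×ˢ B ×ˢ B).filter
        (fun x => x.1.1 + x.2.1 = x.1.2 + x.2.2) := by exact_mod_cast hx
      have hy' : y ∈ ((P ×ˢ P) ×ˢ B ×ˢ B).filter
        (fun x => x.1.1 + x.2.1 = x.1.2 + x.2.2) := by exact_mod_cast hy
      rw [Finset.mem_filter] at hx' hy'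
      simp only [Prod.mk.injEq] at hxy
      have e1 := hx'.2
      have e2 := hy'.2
      rw [hxy.1, hxy.2, e2] at e1
      have e3 : y.1.2 = x.1.2 := add_right_cancel e1
      exact Prod.ext (Prod.ext hxy.1 e3.symm) hxy.2
  calc _ ≤ (P ×ˢ B ×ˢ B).card := h
    _ = P.card * B.card ^ 2 := by
        rw [Finset.card_product, Finset.card_product]; ring

theorem energy_le_right (P B : Finset (ℝ × ℝ)) : P.addEnergy B ≤ P.card ^ 2 * B.card := by
  rw [Finset.addEnergy_comm]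
  calc _ ≤ B.card * P.card ^ 2 := energy_le_left B P
    _ = _ := by ring

/-- The energy bound for one set of shifts. -/
theorem energy_bound (P B : Finset (ℝ × ℝ)) (hP : InSquare P) (hB : InSquare B)
    (hn : 3 ≤ P.card) (hb : B.Nonempty) :
    HasTriangle P (8 * Real.sqrt (P.card * (B.card : ℝ) ^ 5 / (P.addEnergy B : ℝ) ^ 3)) := by
  by_contra hcon
  have hPne : P.Nonempty := Finset.card_pos.mp (by omega)
  have hEpos : 0 < P.addEnergy B := Finset.addEnergy_pos hPne hb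
  have hn3 : (3 : ℝ) ≤ (P.card : ℝ) := by exact_mod_cast hn
  have hb1 : (1 : ℝ) ≤ (B.card : ℝ) := by
    have : 1 ≤ B.card := Finset.card_pos.mpr hb
    exact_mod_cast this
  have hE0 : 0 < (P.addEnergy B : ℝ) := by exact_mod_cast hEpos
  have hEl : (P.addEnergy B : ℝ) ≤ (P.card : ℝ) * (B.card : ℝ) ^ 2 := by
    have := energy_le_left P B
    exact_mod_cast this
  have hEr : (P.addEnergy B : ℝ) ≤ (P.card : ℝ) ^ 2 * (B.card : ℝ) := by
    have := energy_le_right P B
    exact_mod_cast this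
  have hcast2 : 2 ≤ B.card → (2 : ℝ) ≤ (B.card : ℝ) := fun h => by exact_mod_cast h
  set n : ℝ := (P.card : ℝ) with hndef
  set b : ℝ := (B.card : ℝ) with hbdef
  set E : ℝ := (P.addEnergy B : ℝ) with hEdef
  have hn0 : 0 < n := by linarith
  have hb0 : 0 < b := by linarith
  set δ : ℝ := 8 * Real.sqrt (n * b ^ 5 / E ^ 3) with hδ
  have hδ0 : 0 < δ := by positivity
  have hδsq : δ ^ 2 = 64 * (n * b ^ 5 / E ^ 3) := by
    rw [hδ, mul_pow, Real.sq_sqrt (by positivity)]; norm_num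
  have hall : ∀ p ∈ P, ∀ q ∈ P, ∀ r ∈ P, p ≠ q → p ≠ r → q ≠ r → δ < area p q r := by
    intro p hp q hq r hr h1 h2 h3
    by_contra h4
    exact hcon ⟨p, hp, q, hq, r, hr, h1, h2, h3, not_lt.mp h4⟩
  have hδn : δ < 2 / n := by
    obtain ⟨p, hp, q, hq, r, hr, h1, h2, h3, h4⟩ := trivial_bound P hP hn
    exact lt_of_lt_of_le (hall p hp q hq r hr h1 h2 h3) h4
  have hbig : 16 * (n ^ 3 * b ^ 5) < E ^ 3 := by
    have h1 : δ ^ 2 < (2 / n) ^ 2 := by
      apply pow_lt_pow_left₀ hδn hδ0.le (by norm_num)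
    rw [hδsq, div_pow, ← mul_div_assoc, div_lt_div_iff₀ (by positivity) (by positivity)] at h1
    nlinarith
  have hA : ∀ p ∈ P, ∀ q ∈ P, ∀ r ∈ P, p ≠ q → p ≠ r → q ≠ r → 2 * δ ≤ |det3 p q r| := by
    intro p hp q hq r hr h1 h2 h3
    have := hall p hp q hq r hr h1 h2 h3
    unfold area at this
    linarith
  have hb2 : (2 : ℝ) ≤ b := by
    by_contra hlt
    have : B.card < 2 := by
      by_contra h
      exact hlt (hcast2 (not_lt.mp h))
    have hB1 : B.card = 1 := by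
      have := Finset.card_pos.mpr hb
      omega
    have hb1' : b = 1 := by rw [hbdef, hB1]; norm_num
    rw [hb1'] at hbig hEl
    have h3 : E ^ 3 ≤ (n * 1 ^ 2) ^ 3 := pow_le_pow_left₀ hE0.le hEl 3
    have h4 : 0 < n ^ 3 := by positivity
    nlinarith
  set x : ℝ := Real.sqrt (E / (n * b)) with hx
  have hxsq : x ^ 2 = E / (n * b) := Real.sq_sqrt (by positivity)
  have hx0 : 0 < x := by rw [hx]; positivity
  have hx2 : 2 < x := by
    have h1 : 4 < E / (n * b) := by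
      rw [lt_div_iff₀ (by positivity)]
      by_contra h
      have h2 : E ≤ 4 * (n * b) := not_lt.mp h
      have h3 : E ^ 3 ≤ (4 * (n * b)) ^ 3 := pow_le_pow_left₀ hE0.le h2 3
      have h5 : (4 * (n * b)) ^ 3 = 64 * (n ^ 3 * b ^ 3) := by ring
      have h6 : 16 * (n ^ 3 * b ^ 5) = 64 * (n ^ 3 * b ^ 3) + 16 * (n ^ 3 * b ^ 3) * (b ^ 2 - 4) := by
        ring
      have h7 : 0 ≤ 16 * (n ^ 3 * b ^ 3) * (b ^ 2 - 4) := by
        apply mul_nonneg (by positivity)
        nlinarith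
      linarith
    rw [← hxsq] at h1
    nlinarith
  set M : ℕ := ⌊x / 2⌋₊ with hMdef
  have hM1 : 1 ≤ M := by
    apply Nat.le_floor
    rw [Nat.cast_one]
    linarith
  have hMx : (M : ℝ) ≤ x / 2 := Nat.floor_le (by positivity)
  have hMlt : x / 2 < M + 1 := Nat.lt_floor_add_one _
  have hM1' : (1 : ℝ) ≤ M := by exact_mod_cast hM1
  have hM4 : x / 4 < M := by linarith
  have hmain := main_ineq P B hP hB (2 * δ) (by positivity) hA M hM1
  rw [← hndef, ← hbdef, ← hEdef] at hmain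
  -- the first term
  have hT1 : (M : ℝ) ^ 2 * n * b ≤ E / 4 := by
    have h1 : (M : ℝ) ^ 2 ≤ x ^ 2 / 4 := by nlinarith
    have h2 : x ^ 2 / 4 * n * b = E / 4 := by
      rw [hxsq]; field_simp
    calc (M : ℝ) ^ 2 * n * b = (M : ℝ) ^ 2 * (n * b) := by ring
      _ ≤ x ^ 2 / 4 * (n * b) := mul_le_mul_of_nonneg_right h1 (by positivity)
      _ = E / 4 := by rw [← h2]; ring
  -- the diagonal term
  have hT2 : b ^ 2 < E / 6 := by
    have h1 : 16 * n * b ^ 4 < E ^ 2 := by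
      by_contra h
      have h2 : E ^ 2 ≤ 16 * n * b ^ 4 := not_lt.mp h
      have h3 : E ^ 3 ≤ 16 * n * b ^ 4 * (n ^ 2 * b) := by
        calc E ^ 3 = E ^ 2 * E := by ring
          _ ≤ 16 * n * b ^ 4 * (n ^ 2 * b) := mul_le_mul h2 hEr hE0.le (by positivity)
      have h4 : 16 * n * b ^ 4 * (n ^ 2 * b) = 16 * (n ^ 3 * b ^ 5) := by ring
      linarith
    have h2 : (6 * b ^ 2) ^ 2 < E ^ 2 := by
      have h3 : 0 < b ^ 4 := by positivity
      have h4 : (6 * b ^ 2) ^ 2 = 36 * b ^ 4 := by ring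
      nlinarith
    have h5 := lt_of_pow_lt_pow_left₀ 2 hE0.le h2
    linarith
  -- the popularity term
  have haxE : 2 * δ * x = 16 * b ^ 2 / E := by
    have h1 : (2 * δ * x) ^ 2 = (16 * b ^ 2 / E) ^ 2 := by
      rw [mul_pow, mul_pow, hδsq, hxsq]
      field_simp
      ring
    have h2 : 0 ≤ 2 * δ * x := by positivity
    have h3 : 0 ≤ 16 * b ^ 2 / E := by positivity
    rw [← abs_of_nonneg h2, ← abs_of_nonneg h3]
    exact (sq_eq_sq_iff_abs_eq_abs _ _).mp h1
  have hT3 : b ^ 2 * (2 / (M * (2 * δ))) < E / 2 := by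
    have hlt : 4 * b ^ 2 / E < M * (2 * δ) := by
      calc 4 * b ^ 2 / E = (16 * b ^ 2 / E) / 4 := by ring
        _ = 2 * δ * x / 4 := by rw [haxE]
        _ = x / 4 * (2 * δ) := by ring
        _ < M * (2 * δ) := mul_lt_mul_of_pos_right hM4 (by positivity)
    have hpos : 0 < 4 * b ^ 2 / E := by positivity
    have h1 : 2 / (M * (2 * δ)) < 2 / (4 * b ^ 2 / E) :=
      div_lt_div_of_pos_left (by norm_num) hpos hlt
    calc b ^ 2 * (2 / (M * (2 * δ))) < b ^ 2 * (2 / (4 * b ^ 2 / E)) :=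
          mul_lt_mul_of_pos_left h1 (by positivity)
      _ = E / 2 := by
          field_simp
          ring
  have hfin : b ^ 2 * (2 / (M * (2 * δ)) + 1) = b ^ 2 * (2 / (M * (2 * δ))) + b ^ 2 := by ring
  linarith

theorem HasTriangle.mono {P : Finset (ℝ × ℝ)} {δ δ' : ℝ} (h : HasTriangle P δ) (hle : δ ≤ δ') :
    HasTriangle P δ' := by
  obtain ⟨p, hp, q, hq, r, hr, h1, h2, h3, h4⟩ := h
  exact ⟨p, hp, q, hq, r, hr, h1, h2, h3, h4.trans hle⟩

/-- The sumset form. -/
theorem sumset_bound (P B : Finset (ℝ × ℝ)) (hP : InSquare P) (hB : InSquare B)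
    (hn : 3 ≤ P.card) (hb : B.Nonempty) :
    HasTriangle P (8 * Real.sqrt (((P + B).card : ℝ) ^ 3 / ((P.card : ℝ) ^ 5 * B.card))) := by
  have hPne : P.Nonempty := Finset.card_pos.mp (by omega)
  have hn0 : 0 < (P.card : ℝ) := by exact_mod_cast Finset.card_pos.mpr hPne
  have hb0 : 0 < (B.card : ℝ) := by exact_mod_cast Finset.card_pos.mpr hb
  have hE0 : 0 < (P.addEnergy B : ℝ) := by exact_mod_cast Finset.addEnergy_pos hPne hb
  have hCS : (P.card : ℝ) ^ 2 * (B.card : ℝ) ^ 2 ≤ (P + B).card * P.addEnergy B := by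
    have := Finset.le_card_add_mul_addEnergy P B
    exact_mod_cast this
  refine (energy_bound P B hP hB hn hb).mono ?_
  apply mul_le_mul_of_nonneg_left _ (by norm_num)
  apply Real.sqrt_le_sqrt
  rw [div_le_div_iff₀ (by positivity) (by positivity)]
  have h1 : ((P.card : ℝ) ^ 2 * (B.card : ℝ) ^ 2) ^ 3
      ≤ ((P + B).card * P.addEnergy B : ℝ) ^ 3 :=
    pow_le_pow_left₀ (by positivity) hCS 3
  calc (P.card : ℝ) * (B.card : ℝ) ^ 5 * ((P.card : ℝ) ^ 5 * B.card)
      = ((P.card : ℝ) ^ 2 * (B.card : ℝ) ^ 2) ^ 3 := by ring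
    _ ≤ ((P + B).card * P.addEnergy B : ℝ) ^ 3 := h1
    _ = ((P + B).card : ℝ) ^ 3 * (P.addEnergy B : ℝ) ^ 3 := by ring

/-- The difference set form. -/
theorem diffset_bound (P B : Finset (ℝ × ℝ)) (hP : InSquare P) (hB : InSquare B)
    (hn : 3 ≤ P.card) (hb : B.Nonempty) :
    HasTriangle P (8 * Real.sqrt (((P - B).card : ℝ) ^ 3 / ((P.card : ℝ) ^ 5 * B.card))) := by
  set B' : Finset (ℝ × ℝ) := B.image (fun x => ((1, 1) : ℝ × ℝ) - x) with hB'
  have hinj : Function.Injective (fun x : ℝ × ℝ => ((1, 1) : ℝ × ℝ) - x) :=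
    sub_right_injective
  have hcard : B'.card = B.card := Finset.card_image_of_injective B hinj
  have hsq : InSquare B' := by
    intro y hy
    obtain ⟨x, hx, rfl⟩ := Finset.mem_image.mp hy
    obtain ⟨⟨h1, h2⟩, h3, h4⟩ := hB x hx
    refine ⟨⟨?_, ?_⟩, ?_, ?_⟩
    · show (0 : ℝ) ≤ 1 - x.1
      linarith
    · show (1 : ℝ) - x.1 ≤ 1
      linarith
    · show (0 : ℝ) ≤ 1 - x.2
      linarith
    · show (1 : ℝ) - x.2 ≤ 1
      linarith
  have hne : B'.Nonempty := hb.image _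
  have hsum : (P + B').card = (P - B).card := by
    have e : P + B' = (P - B).image (fun z => ((1, 1) : ℝ × ℝ) + z) := by
      ext z
      rw [Finset.mem_add, Finset.mem_image]
      constructor
      · rintro ⟨p, hp, y, hy, rfl⟩
        obtain ⟨x, hx, rfl⟩ := Finset.mem_image.mp hy
        refine ⟨p - x, Finset.sub_mem_sub hp hx, ?_⟩
        abel
      · rintro ⟨w, hw, rfl⟩
        obtain ⟨p, hp, x, hx, rfl⟩ := Finset.mem_sub.mp hw
        refine ⟨p, hp, (1, 1) - x, Finset.mem_image_of_mem _ hx, ?_⟩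
        abel
    rw [e]
    exact Finset.card_image_of_injective _ (add_right_injective _)
  have h := sumset_bound P B' hP hsq hn hne
  rw [hsum, hcard] at h
  exact h

theorem exponent_aux (n T κ : ℝ) (hn : 0 < n) (hT0 : 0 ≤ T)
    (hT : T ≤ n ^ (-1 + κ)) :
    Real.sqrt (T ^ 3) ≤ n ^ (-(3 / 2) + 3 / 2 * κ) := by
  have h1 : T ^ 3 ≤ (n ^ (-1 + κ)) ^ 3 := pow_le_pow_left₀ hT0 hT 3
  have h2 : (n ^ (-1 + κ)) ^ 3 = (n ^ (-(3 / 2) + 3 / 2 * κ)) ^ 2 := by
    rw [← Real.rpow_natCast, ← Real.rpow_natCast, ← Real.rpow_mul hn.le, ← Real.rpow_mul hn.le]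
    congr 1
    push_cast
    ring
  rw [h2] at h1
  exact Real.sqrt_le_iff.mpr ⟨Real.rpow_nonneg hn.le _, h1⟩

/-- **Heilbronn triangles in sets with additive structure.** -/
theorem result :
    (∀ P B : Finset (ℝ × ℝ), InSquare P → InSquare B → 3 ≤ P.card → B.Nonempty →
      HasTriangle P
        (8 * Real.sqrt ((P.card : ℝ) * (B.card : ℝ) ^ 5 / (Finset.addEnergy P B : ℝ) ^ 3))) ∧
    (∀ P B : Finset (ℝ × ℝ), InSquare P → InSquare B → 3 ≤ P.card → B.Nonempty →
      HasTriangle P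
        (8 * Real.sqrt (((P + B).card : ℝ) ^ 3 / ((P.card : ℝ) ^ 5 * (B.card : ℝ)))) ∧
      HasTriangle P
        (8 * Real.sqrt (((P - B).card : ℝ) ^ 3 / ((P.card : ℝ) ^ 5 * (B.card : ℝ))))) ∧
    (∀ P : Finset (ℝ × ℝ), InSquare P → 3 ≤ P.card → ∀ κ : ℝ,
      ((P.card : ℝ) ^ (3 - κ) ≤ (Finset.addEnergy P P : ℝ) ∨
        ((P + P).card : ℝ) ≤ (P.card : ℝ) ^ (1 + κ) ∨
        ((P - P).card : ℝ) ≤ (P.card : ℝ) ^ (1 + κ)) →
      HasTriangle P (8 * (P.card : ℝ) ^ (-(3 / 2) + 3 / 2 * κ))) := by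
  refine ⟨fun P B hP hB hn hb => energy_bound P B hP hB hn hb,
    fun P B hP hB hn hb => ⟨sumset_bound P B hP hB hn hb, diffset_bound P B hP hB hn hb⟩, ?_⟩
  intro P hP hn κ h
  have hPne : P.Nonempty := Finset.card_pos.mp (by omega)
  have hn0 : 0 < (P.card : ℝ) := by exact_mod_cast Finset.card_pos.mpr hPne
  have hE0 : 0 < (P.addEnergy P : ℝ) := by exact_mod_cast Finset.addEnergy_pos hPne hPne
  rcases h with h | h | h
  · refine (energy_bound P P hP hP hn hPne).mono ?_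
    apply mul_le_mul_of_nonneg_left _ (by norm_num)
    have e : (P.card : ℝ) * (P.card : ℝ) ^ 5 / (P.addEnergy P : ℝ) ^ 3
        = ((P.card : ℝ) ^ 2 / (P.addEnergy P : ℝ)) ^ 3 := by
      rw [div_pow]; ring
    rw [e]
    apply exponent_aux _ _ _ hn0 (by positivity)
    rw [div_le_iff₀ hE0]
    have e2 : (P.card : ℝ) ^ 2 = (P.card : ℝ) ^ (-1 + κ) * (P.card : ℝ) ^ (3 - κ) := by
      rw [← Real.rpow_add hn0, ← Real.rpow_natCast]
      congr 1
      push_cast
      ring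
    rw [e2]
    exact mul_le_mul_of_nonneg_left h (Real.rpow_nonneg hn0.le _)
  · refine (sumset_bound P P hP hP hn hPne).mono ?_
    apply mul_le_mul_of_nonneg_left _ (by norm_num)
    have e : ((P + P).card : ℝ) ^ 3 / ((P.card : ℝ) ^ 5 * (P.card : ℝ))
        = (((P + P).card : ℝ) / (P.card : ℝ) ^ 2) ^ 3 := by
      rw [div_pow]; ring
    rw [e]
    apply exponent_aux _ _ _ hn0 (by positivity)
    rw [div_le_iff₀ (by positivity)]
    have e2 : (P.card : ℝ) ^ (-1 + κ) * (P.card : ℝ) ^ 2 = (P.card : ℝ) ^ (1 + κ) := by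
      rw [← Real.rpow_natCast, ← Real.rpow_add hn0]
      congr 1
      push_cast
      ring
    rw [e2]
    exact h
  · refine (diffset_bound P P hP hP hn hPne).mono ?_
    apply mul_le_mul_of_nonneg_left _ (by norm_num)
    have e : ((P - P).card : ℝ) ^ 3 / ((P.card : ℝ) ^ 5 * (P.card : ℝ))
        = (((P - P).card : ℝ) / (P.card : ℝ) ^ 2) ^ 3 := by
      rw [div_pow]; ring
    rw [e]
    apply exponent_aux _ _ _ hn0 (by positivity)
    rw [div_le_iff₀ (by positivity)]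
    have e2 : (P.card : ℝ) ^ (-1 + κ) * (P.card : ℝ) ^ 2 = (P.card : ℝ) ^ (1 + κ) := by
      rw [← Real.rpow_natCast, ← Real.rpow_add hn0]
      congr 1
      push_cast
      ring
    rw [e2]
    exact h

end Vale.Agent.Results.P036.EnergyBound
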