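import Vale.Agent.Lib.P036.Geom

/-!
P036 (Heilbronn's triangle problem): point sets with large additive energy or small sumset contain
triangles of area at most `500 (n² / E)^(3/2)`, respectively `500 (K / n)^(3/2)`.
-/

set_option autoImplicit false

open scoped Pointwise

namespace Vale.Agent.Results.P036.EnergyTriangles

/-- The area of the triangle `pqr`. -/
noncomputable def area (p q r : ℝ × ℝ) : ℝ :=
  |(q.1 - p.1) * (r.2 - p.2) - (q.2 - p.2) * (r.1 - p.1)| / 2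

/-- `Δ(P)`: the smallest area of a triangle with distinct vertices in `P`. -/
noncomputable def Delta (P : Finset (ℝ × ℝ)) : ℝ :=
  sInf {a | ∃ p ∈ P, ∃ q ∈ P, ∃ r ∈ P, p ≠ q ∧ p ≠ r ∧ q ≠ r ∧ a = area p q r}

theorem Delta_le {P : Finset (ℝ × ℝ)} {p q r : ℝ × ℝ} (hp : p ∈ P) (hq : q ∈ P) (hr : r ∈ P)
    (h1 : p ≠ q) (h2 : p ≠ r) (h3 : q ≠ r) : Delta P ≤ area p q r := by
  refine csInf_le ⟨0, ?_⟩ ⟨p, hp, q, hq, r, hr, h1, h2, h3, rfl⟩
  rintro a ⟨p, -, q, -, r, -, -, -, -, rfl⟩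
  unfold area
  positivity

/-- Let `P` be a set of `n ≥ 3` points of the unit square, and let `E` be its additive energy, the
number of the quadruples of points of `P` with `a + b = a' + b'`.  Then
`Δ(P) ≤ 500 (n² / E)^(3/2)`.  In particular, if `|P + P| ≤ K |P|`, then
`Δ(P) ≤ 500 (K / n)^(3/2)`. -/
theorem result (P : Finset (ℝ × ℝ))
    (hP : ∀ p ∈ P, (0 ≤ p.1 ∧ p.1 ≤ 1) ∧ (0 ≤ p.2 ∧ p.2 ≤ 1)) (h3 : 3 ≤ P.card) :
    Delta P ≤ 500 * ((P.card : ℝ) ^ 2 / P.addEnergy P) ^ ((3 : ℝ) / 2) ∧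
    ∀ K : ℝ, ((P + P).card : ℝ) ≤ K * P.card →
      Delta P ≤ 500 * (K / P.card) ^ ((3 : ℝ) / 2) := by
  have h1 : Delta P ≤ 500 * ((P.card : ℝ) ^ 2 / P.addEnergy P) ^ ((3 : ℝ) / 2) := by
    obtain ⟨p, hp, q, hq, r, hr, h4, h5, h6, h7⟩ := _root_.P036E.main P hP h3
    exact (Delta_le hp hq hr h4 h5 h6).trans h7
  refine ⟨h1, fun K hK => h1.trans ?_⟩
  have hn : (0 : ℝ) < P.card := by
    have : 0 < P.card := by omega
    exact_mod_cast this
  have hE : (0 : ℝ) < P.addEnergy P := by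
    exact_mod_cast Finset.addEnergy_self_pos (Finset.card_pos.1 (by omega))
  have h4 : (P.card : ℝ) ^ 2 * (P.card : ℝ) ^ 2 ≤ ((P + P).card : ℝ) * P.addEnergy P := by
    exact_mod_cast Finset.le_card_add_mul_addEnergy P P
  have h5 : (P.card : ℝ) ^ 2 * (P.card : ℝ) ^ 2 ≤ K * P.card * P.addEnergy P :=
    h4.trans (mul_le_mul_of_nonneg_right hK hE.le)
  have h6 : (P.card : ℝ) ^ 2 / P.addEnergy P ≤ K / P.card := by
    rw [div_le_div_iff₀ hE hn]
    have h7 : (P.card : ℝ) * ((P.card : ℝ) ^ 2 * P.card) ≤ P.card * (K * P.addEnergy P) := by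
      nlinarith
    exact le_of_mul_le_mul_left h7 hn
  exact mul_le_mul_of_nonneg_left (Real.rpow_le_rpow (by positivity) h6 (by norm_num))
    (by norm_num)

end Vale.Agent.Results.P036.EnergyTriangles
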