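import Vale.Agent.Results.P036.EnergyBound

/-! P036 (Heilbronn's triangle problem): small triangles in sets with additive structure, and the
lack of additive structure in sets without small triangles. -/

open scoped Pointwise

namespace Vale.Agent.Results.P036.StructuredSets

/-- `Δ(P)`: the least area of a triangle with three distinct vertices in `P`. -/
noncomputable def Delta (P : Finset (ℝ × ℝ)) : ℝ :=
  sInf {a : ℝ | ∃ p ∈ P, ∃ q ∈ P, ∃ r ∈ P, p ≠ q ∧ p ≠ r ∧ q ≠ r ∧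
    a = 1 / 2 * |(q.1 - p.1) * (r.2 - p.2) - (q.2 - p.2) * (r.1 - p.1)|}

theorem Delta_nonneg (P : Finset (ℝ × ℝ)) : 0 ≤ Delta P := by
  refine Real.sInf_nonneg ?_
  rintro a ⟨p, -, q, -, r, -, -, -, -, rfl⟩
  positivity

theorem Delta_le {P : Finset (ℝ × ℝ)} {δ : ℝ} (h : EnergyBound.HasTriangle P δ) :
    Delta P ≤ δ := by
  obtain ⟨p, hp, q, hq, r, hr, h1, h2, h3, h4⟩ := h
  refine le_trans (csInf_le ⟨0, ?_⟩ ⟨p, hp, q, hq, r, hr, h1, h2, h3, rfl⟩) h4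
  rintro a ⟨p, -, q, -, r, -, -, -, -, rfl⟩
  positivity

theorem sq_le_of {x y : ℝ} (hx : 0 ≤ x) (hy : 0 ≤ y) (h : x ≤ 8 * Real.sqrt y) :
    x ^ 2 ≤ 64 * y := by
  calc x ^ 2 ≤ (8 * Real.sqrt y) ^ 2 := pow_le_pow_left₀ hx h 2
    _ = 64 * y := by rw [mul_pow, Real.sq_sqrt hy]; norm_num

/-- Let `P`, `B` be finite subsets of the unit square, `n = |P| ≥ 3`, `B` nonempty, `E(P, B)` the
additive energy.
(1) `Δ(P)² ≤ 64 n |B|⁵ / E(P,B)³`, `Δ(P)² ≤ 64 |P+B|³ / (n⁵ |B|)`, `Δ(P)² ≤ 64 |P-B|³ / (n⁵ |B|)`.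
(2) If `E(P,P) ≥ n^(3-κ)` or `|P+P| ≤ n^(1+κ)` or `|P-P| ≤ n^(1+κ)` then
`Δ(P) ≤ 8 n^(-3/2+3κ/2)`.
(3) If `Δ(P) ≥ n^(-7/6)` then `E(P,P) ≤ 4 n^(25/9)`, `|P+P| ≥ n^(11/9)/4`, `|P-P| ≥ n^(11/9)/4`. -/
theorem result :
    (∀ P B : Finset (ℝ × ℝ), (∀ p ∈ P ∪ B, p ∈ Set.Icc (0 : ℝ) 1 ×ˢ Set.Icc (0 : ℝ) 1) →
      3 ≤ P.card → B.Nonempty →
      Delta P ^ 2 ≤ 64 * (P.card * B.card ^ 5 / P.addEnergy B ^ 3) ∧
      Delta P ^ 2 ≤ 64 * ((P + B).card ^ 3 / (P.card ^ 5 * B.card)) ∧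
      Delta P ^ 2 ≤ 64 * ((P - B).card ^ 3 / (P.card ^ 5 * B.card))) ∧
    (∀ P : Finset (ℝ × ℝ), (∀ p ∈ P, p ∈ Set.Icc (0 : ℝ) 1 ×ˢ Set.Icc (0 : ℝ) 1) →
      3 ≤ P.card → ∀ κ : ℝ,
      ((P.card : ℝ) ^ (3 - κ) ≤ P.addEnergy P ∨ ((P + P).card : ℝ) ≤ (P.card : ℝ) ^ (1 + κ) ∨
        ((P - P).card : ℝ) ≤ (P.card : ℝ) ^ (1 + κ)) →
      Delta P ≤ 8 * (P.card : ℝ) ^ (-(3 / 2) + 3 / 2 * κ)) ∧
    (∀ P : Finset (ℝ × ℝ), (∀ p ∈ P, p ∈ Set.Icc (0 : ℝ) 1 ×ˢ Set.Icc (0 : ℝ) 1) →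
      3 ≤ P.card → (P.card : ℝ) ^ (-(7 / 6) : ℝ) ≤ Delta P →
      (P.addEnergy P : ℝ) ≤ 4 * (P.card : ℝ) ^ (25 / 9 : ℝ) ∧
      (P.card : ℝ) ^ (11 / 9 : ℝ) ≤ 4 * (P + P).card ∧
      (P.card : ℝ) ^ (11 / 9 : ℝ) ≤ 4 * (P - P).card) := by
  have hsq : ∀ P : Finset (ℝ × ℝ), (∀ p ∈ P, p ∈ Set.Icc (0 : ℝ) 1 ×ˢ Set.Icc (0 : ℝ) 1) →
      EnergyBound.InSquare P := by
    intro P hP p hp
    obtain ⟨⟨h1, h2⟩, h3, h4⟩ := hP p hp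
    exact ⟨⟨h1, h2⟩, h3, h4⟩
  have h1 : ∀ P B : Finset (ℝ × ℝ), (∀ p ∈ P ∪ B, p ∈ Set.Icc (0 : ℝ) 1 ×ˢ Set.Icc (0 : ℝ) 1) →
      3 ≤ P.card → B.Nonempty →
      Delta P ^ 2 ≤ 64 * (P.card * B.card ^ 5 / P.addEnergy B ^ 3) ∧
      Delta P ^ 2 ≤ 64 * ((P + B).card ^ 3 / (P.card ^ 5 * B.card)) ∧
      Delta P ^ 2 ≤ 64 * ((P - B).card ^ 3 / (P.card ^ 5 * B.card)) := by
    intro P B hPB hn hB
    have hP : EnergyBound.InSquare P := hsq P fun p hp => hPB p (Finset.mem_union_left _ hp)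
    have hB' : EnergyBound.InSquare B := hsq B fun p hp => hPB p (Finset.mem_union_right _ hp)
    refine ⟨sq_le_of (Delta_nonneg P) (by positivity)
        (Delta_le (EnergyBound.result.1 P B hP hB' hn hB)),
      sq_le_of (Delta_nonneg P) (by positivity)
        (Delta_le (EnergyBound.result.2.1 P B hP hB' hn hB).1),
      sq_le_of (Delta_nonneg P) (by positivity)
        (Delta_le (EnergyBound.result.2.1 P B hP hB' hn hB).2)⟩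
  refine ⟨h1, fun P hP hn κ h => Delta_le (EnergyBound.result.2.2 P (hsq P hP) hn κ h), ?_⟩
  intro P hP hn hD
  have hPne : P.Nonempty := Finset.card_pos.mp (by omega)
  obtain ⟨n, hnd⟩ : ∃ n : ℝ, n = P.card := ⟨_, rfl⟩
  have hn0 : 0 < n := by
    rw [hnd]
    exact_mod_cast Finset.card_pos.mpr hPne
  have hPP : ∀ p ∈ P ∪ P, p ∈ Set.Icc (0 : ℝ) 1 ×ˢ Set.Icc (0 : ℝ) 1 := by
    intro p hp
    rw [Finset.union_self] at hp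
    exact hP p hp
  obtain ⟨g1, g2, g3⟩ := h1 P P hPP hn hPne
  rw [← hnd] at hD g1 g2 g3 ⊢
  have hE0 : 0 < (P.addEnergy P : ℝ) := by exact_mod_cast Finset.addEnergy_pos hPne hPne
  have hD2 : n ^ (-(7 / 3) : ℝ) ≤ Delta P ^ 2 := by
    calc n ^ (-(7 / 3) : ℝ) = (n ^ (-(7 / 6) : ℝ)) ^ 2 := by
          rw [← Real.rpow_natCast, ← Real.rpow_mul hn0.le]
          norm_num
      _ ≤ Delta P ^ 2 := pow_le_pow_left₀ (Real.rpow_nonneg hn0.le _) hD 2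
  have key : ∀ x : ℝ, 0 ≤ x → n ^ (-(7 / 3) : ℝ) ≤ 64 * (x ^ 3 / (n ^ 5 * n)) →
      n ^ (11 / 9 : ℝ) ≤ 4 * x := by
    intro x hx h
    refine le_of_pow_le_pow_left₀ (n := 3) (by norm_num) (by positivity) ?_
    have e1 : (n ^ (11 / 9 : ℝ)) ^ 3 = n ^ (-(7 / 3) : ℝ) * (n ^ 5 * n) := by
      rw [← Real.rpow_natCast, ← Real.rpow_mul hn0.le, ← pow_succ, ← Real.rpow_natCast n (5 + 1),
        ← Real.rpow_add hn0]
      norm_num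
    rw [e1]
    calc n ^ (-(7 / 3) : ℝ) * (n ^ 5 * n) ≤ 64 * (x ^ 3 / (n ^ 5 * n)) * (n ^ 5 * n) :=
          mul_le_mul_of_nonneg_right h (by positivity)
      _ = (4 * x) ^ 3 := by
          field_simp
          ring
  refine ⟨?_, key _ (Nat.cast_nonneg _) (hD2.trans g2), key _ (Nat.cast_nonneg _) (hD2.trans g3)⟩
  refine le_of_pow_le_pow_left₀ (n := 3) (by norm_num) (by positivity) ?_
  have e2 : (4 * n ^ (25 / 9 : ℝ)) ^ 3 = 64 * (n ^ 6 * n ^ (7 / 3 : ℝ)) := by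
    rw [mul_pow, ← Real.rpow_natCast (n ^ (25 / 9 : ℝ)), ← Real.rpow_mul hn0.le,
      ← Real.rpow_natCast n 6, ← Real.rpow_add hn0]
    norm_num
  rw [e2]
  have h5 := hD2.trans g1
  have h6 : n ^ (-(7 / 3) : ℝ) * n ^ (7 / 3 : ℝ) = 1 := by
    rw [← Real.rpow_add hn0]
    norm_num
  have h7 : 0 < n ^ (7 / 3 : ℝ) := by positivity
  calc (P.addEnergy P : ℝ) ^ 3
      = n ^ (-(7 / 3) : ℝ) * (n ^ (7 / 3 : ℝ) * (P.addEnergy P : ℝ) ^ 3) := by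
        rw [← mul_assoc, h6, one_mul]
    _ ≤ 64 * (n * n ^ 5 / (P.addEnergy P : ℝ) ^ 3) *
          (n ^ (7 / 3 : ℝ) * (P.addEnergy P : ℝ) ^ 3) :=
        mul_le_mul_of_nonneg_right h5 (by positivity)
    _ = 64 * (n ^ 6 * n ^ (7 / 3 : ℝ)) := by
        field_simp

end Vale.Agent.Results.P036.StructuredSets
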